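import Mathlib

/-!
Entire functions of exponential growth which are periodic under `z ↦ z + I`:
they are trigonometric polynomials in `exp (2 π z)`, and a sign of the imaginary part on the
strip `0 ≤ im z ≤ 1/2` leaves only the three terms `1, exp (2 π z), exp (- 2 π z)`.
Three lines theorem for functions of exponential growth.
-/

open Complex Filter Topology Asymptotics
open scoped Real

namespace H205.Ent

noncomputable section

/-- an entire function of polynomial growth is a polynomial -/
theorem poly_of_growth (G : ℂ → ℂ) (hG : Differentiable ℂ G) (C : ℝ) (M : ℕ)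
    (hb : ∀ q, ‖G q‖ ≤ C * (1 + ‖q‖) ^ M) (q : ℂ) :
    G q = ∑ k ∈ Finset.range (M + 1), ((k.factorial : ℂ)⁻¹ * iteratedDeriv k G 0) * q ^ k := by
  have hC : 0 ≤ C := by
    have h := hb 0
    simp only [norm_zero, add_zero, one_pow, mul_one] at h
    exact le_trans (norm_nonneg _) h
  have hz : ∀ n, M < n → iteratedDeriv n G 0 = 0 := by
    intro n hn
    by_contra hne
    have hpos : 0 < ‖iteratedDeriv n G 0‖ := norm_pos_iff.mpr hne
    set K : ℝ := n.factorial * (C * 2 ^ M) with hK
    have hK0 : 0 ≤ K := by positivity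
    have key : ∀ R : ℝ, 1 ≤ R → ‖iteratedDeriv n G 0‖ * R ≤ K := by
      intro R hR
      have hR0 : 0 < R := by linarith
      have h1 := Complex.norm_iteratedDeriv_le_of_forall_mem_sphere_norm_le (c := 0)
        (f := G) (C := C * (2 * R) ^ M) n hR0 hG.diffContOnCl (by
          intro z hz
          have hzR : ‖z‖ = R := by simpa using hz
          refine le_trans (hb z) ?_
          rw [hzR]
          refine mul_le_mul_of_nonneg_left ?_ hC
          exact pow_le_pow_left₀ (by positivity) (by linarith) M)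
      obtain ⟨m, rfl⟩ : ∃ m, n = M + 1 + m := ⟨n - (M + 1), by omega⟩
      have h2 : ((M + 1 + m).factorial : ℝ) * (C * (2 * R) ^ M) / R ^ (M + 1 + m)
          ≤ K / R := by
        rw [div_le_div_iff₀ (by positivity) hR0, hK]
        have h3 : (1 : ℝ) ≤ R ^ m := one_le_pow₀ hR
        have h4 : ((M + 1 + m).factorial : ℝ) * (C * (2 * R) ^ M) * R
            = ((M + 1 + m).factorial : ℝ) * (C * 2 ^ M) * R ^ (M + 1) := by
          rw [mul_pow, pow_succ]; ring
        have h5 : 0 ≤ ((M + 1 + m).factorial : ℝ) * (C * 2 ^ M) * R ^ (M + 1) := by positivity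
        have h6 : R ^ (M + 1 + m) = R ^ (M + 1) * R ^ m := pow_add _ _ _
        calc ((M + 1 + m).factorial : ℝ) * (C * (2 * R) ^ M) * R
            = ((M + 1 + m).factorial : ℝ) * (C * 2 ^ M) * R ^ (M + 1) := h4
          _ ≤ ((M + 1 + m).factorial : ℝ) * (C * 2 ^ M) * R ^ (M + 1) * R ^ m :=
              le_mul_of_one_le_right h5 h3
          _ = _ := by rw [h6]; ring
      have h6 := le_trans h1 h2
      rwa [le_div_iff₀ hR0] at h6
    have h7 := key (K / ‖iteratedDeriv n G 0‖ + 1) (by
      have : 0 ≤ K / ‖iteratedDeriv n G 0‖ := by positivity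
      linarith)
    rw [mul_add, mul_div_cancel₀ _ hpos.ne', mul_one] at h7
    linarith
  have h1 := Complex.hasSum_taylorSeries_of_entire hG 0 q
  have h2 : HasSum (fun n : ℕ => (n.factorial : ℂ)⁻¹ • (q - 0) ^ n • iteratedDeriv n G 0)
      (∑ k ∈ Finset.range (M + 1), (k.factorial : ℂ)⁻¹ • (q - 0) ^ k • iteratedDeriv k G 0) := by
    apply hasSum_sum_of_ne_finset_zero
    intro n hn
    have : M < n := by
      simp only [Finset.mem_range, not_lt] at hn
      omega
    rw [hz n this, smul_zero, smul_zero]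
  rw [h1.unique h2]
  refine Finset.sum_congr rfl fun k _ => ?_
  simp only [smul_eq_mul, sub_zero]
  ring

/-- the Laurent form: entire, `I`-periodic, exponential growth -/
theorem laurent (P : ℂ → ℂ) (hP : Differentiable ℂ P) (hper : ∀ z, P (z + I) = P z)
    (C k : ℝ) (hb : ∀ z, ‖P z‖ ≤ C * Real.exp (k * |z.re|)) :
    ∃ (N : ℕ) (c : ℕ → ℂ), ∀ z,
      P z = ∑ j ∈ Finset.range (2 * N + 1), c j * exp (2 * π * ((j : ℂ) - N) * z) := by
  have hC : 0 ≤ C := by
    have h := hb 0
    simp only [zero_re, abs_zero, mul_zero, Real.exp_zero, mul_one] at h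
    exact le_trans (norm_nonneg _) h
  obtain ⟨N, hN⟩ := exists_nat_ge (k / (2 * π))
  have hN' : k ≤ 2 * π * N := by
    rwa [div_le_iff₀ (by positivity), mul_comm] at hN
  -- the function with period one, and its regularisation at `I∞`
  set g : ℂ → ℂ := fun w => exp (2 * π * I * N * w) * P (I * w) with hg
  have hgd : Differentiable ℂ g := by
    have h1 : Differentiable ℂ fun w : ℂ => P (I * w) :=
      hP.comp (differentiable_id.const_mul I)
    have h2 : Differentiable ℂ fun w : ℂ => exp (2 * π * I * N * w) := by fun_prop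
    exact h2.mul h1
  have hgp : Function.Periodic g ((1 : ℝ) : ℂ) := by
    intro w
    simp only [hg, ofReal_one, mul_add, mul_one]
    rw [hper, exp_add]
    have : exp (2 * π * I * N) = 1 := by
      have := Complex.exp_nat_mul_two_pi_mul_I N
      rw [← this]; congr 1; ring
    rw [this, mul_one]
  have hgn : ∀ w, ‖g w‖ ≤ C * (Real.exp (-(2 * π * N) * w.im) * Real.exp (2 * π * N * |w.im|)) := by
    intro w
    simp only [hg, norm_mul, norm_exp]
    have h1 : (2 * π * I * N * w).re = -(2 * π * N) * w.im := by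
      simp [mul_re, mul_im]
    have h2 := hb (I * w)
    have h3 : |(I * w).re| = |w.im| := by simp
    rw [h3] at h2
    rw [h1]
    have h4 : Real.exp (k * |w.im|) ≤ Real.exp (2 * π * N * |w.im|) :=
      Real.exp_le_exp.mpr (mul_le_mul_of_nonneg_right hN' (abs_nonneg _))
    calc Real.exp (-(2 * π * N) * w.im) * ‖P (I * w)‖
        ≤ Real.exp (-(2 * π * N) * w.im) * (C * Real.exp (2 * π * N * |w.im|)) := by
          refine mul_le_mul_of_nonneg_left ?_ (Real.exp_pos _).le
          exact le_trans h2 (mul_le_mul_of_nonneg_left h4 hC)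
      _ = _ := by ring
  set G : ℂ → ℂ := Function.Periodic.cuspFunction 1 g with hGdef
  have hbd : ∀ w : ℂ, 0 ≤ w.im → ‖g w‖ ≤ C := by
    intro w hw
    refine le_trans (hgn w) ?_
    rw [abs_of_nonneg hw, ← Real.exp_add]
    simp
  have hGd : Differentiable ℂ G := by
    intro q
    by_cases hq : q = 0
    · subst hq
      refine Function.Periodic.differentiableAt_cuspFunction_zero one_pos hgp
        (Eventually.of_forall fun z => hgd z) ?_
      refine IsBigO.of_bound C ?_
      have : ∀ᶠ y : ℝ in atTop, 0 ≤ y := eventually_ge_atTop 0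
      filter_upwards [this.comap im] with w hw
      simpa using hbd w hw
    · rw [← Function.Periodic.qParam_right_inv one_ne_zero hq]
      exact Function.Periodic.differentiableAt_cuspFunction one_ne_zero hgp (hgd _)
  have hGq : ∀ w, G (Function.Periodic.qParam 1 w) = g w := fun w =>
    Function.Periodic.eq_cuspFunction one_ne_zero hgp w
  have hGn : ∀ q, q ≠ 0 → ‖G q‖ ≤ C * (1 + ‖q‖) ^ (2 * N) := by
    intro q hq
    set w := Function.Periodic.invQParam 1 q with hw
    have hqw : Function.Periodic.qParam 1 w = q := Function.Periodic.qParam_right_inv one_ne_zero hq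
    have hnq : ‖q‖ = Real.exp (-(2 * π) * w.im) := by
      rw [← hqw, Function.Periodic.norm_qParam]; congr 1; ring
    rw [← hqw, hGq, hqw]
    rcases le_total 0 w.im with h | h
    · refine le_trans (hbd w h) ?_
      exact le_mul_of_one_le_right hC (one_le_pow₀ (by linarith [norm_nonneg q]))
    · refine le_trans (hgn w) ?_
      refine mul_le_mul_of_nonneg_left ?_ hC
      rw [abs_of_nonpos h, ← Real.exp_add]
      have h1 : -(2 * π * N) * w.im + 2 * π * N * -w.im = (2 * N : ℕ) * (-(2 * π) * w.im) := by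
        push_cast; ring
      rw [h1, Real.exp_nat_mul, ← hnq]
      exact pow_le_pow_left₀ (norm_nonneg _) (by linarith) _
  have hGn' : ∀ q, ‖G q‖ ≤ C * (1 + ‖q‖) ^ (2 * N) := by
    intro q
    by_cases hq : q = 0
    · subst hq
      have h1 : Tendsto (fun q => ‖G q‖) (𝓝[≠] 0) (𝓝 ‖G 0‖) :=
        (hGd.continuous.norm.tendsto 0).mono_left nhdsWithin_le_nhds
      have h2 : Tendsto (fun q : ℂ => C * (1 + ‖q‖) ^ (2 * N)) (𝓝[≠] 0)
          (𝓝 (C * (1 + ‖(0 : ℂ)‖) ^ (2 * N))) :=
        Tendsto.mono_left (Continuous.tendsto (by fun_prop) 0) nhdsWithin_le_nhds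
      exact le_of_tendsto_of_tendsto h1 h2
        (eventually_nhdsWithin_of_forall fun q hq => hGn q hq)
    · exact hGn q hq
  refine ⟨N, fun j => (j.factorial : ℂ)⁻¹ * iteratedDeriv j G 0, fun z => ?_⟩
  have h1 := hGq (-I * z)
  have h2 : I * (-I * z) = z := by
    rw [← mul_assoc, mul_neg, I_mul_I, neg_neg, one_mul]
  have h3 : Function.Periodic.qParam 1 (-I * z) = exp (2 * π * z) := by
    unfold Function.Periodic.qParam
    congr 1
    rw [ofReal_one, div_one]
    linear_combination (-2 * π * z) * I_mul_I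
  have h4 : (2 : ℂ) * π * I * N * (-I * z) = 2 * π * N * z := by
    linear_combination (-2 * π * N * z) * I_mul_I
  rw [h3, poly_of_growth G hGd C (2 * N) hGn'] at h1
  simp only [hg, h2, h4] at h1
  have h5 : P z = exp (-(2 * π * N * z)) * (exp (2 * π * N * z) * P z) := by
    rw [← mul_assoc, ← exp_add]; simp
  rw [h5, ← h1, Finset.mul_sum]
  refine Finset.sum_congr rfl fun j _ => ?_
  rw [← exp_nat_mul]
  have h6 : exp (2 * π * ((j : ℂ) - N) * z) = exp (-(2 * π * N * z)) * exp (j * (2 * π * z)) := by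
    rw [← exp_add]; congr 1; ring
  rw [h6]; ring

/-- leading coefficient: if the imaginary part is `≤ 0` on the strip, no exponent `≥ 2` -/
theorem top_zero (S : Finset ℤ) (c : ℤ → ℂ)
    (hIm : ∀ z : ℂ, 0 ≤ z.im → z.im ≤ 1 / 2 →
      (∑ n ∈ S, c n * exp (2 * π * (n : ℂ) * z)).im ≤ 0) :
    ∀ n ∈ S, 2 ≤ n → c n = 0 := by
  classical
  by_contra hcon
  push Not at hcon
  obtain ⟨n0, hn0, hn0', hn0c⟩ := hcon
  set T := S.filter (fun n => 2 ≤ n ∧ c n ≠ 0) with hT
  have hTne : T.Nonempty := ⟨n0, by simp [hT, hn0, hn0', hn0c]⟩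
  obtain ⟨m, hmT, hmax⟩ := T.exists_max_image id hTne
  have hmS : m ∈ S ∧ 2 ≤ m ∧ c m ≠ 0 := by simpa [hT] using hmT
  obtain ⟨hmS, hm2, hmc⟩ := hmS
  have hbig : ∀ n ∈ S, m < n → c n = 0 := by
    intro n hn hmn
    by_contra hne
    have : n ∈ T := by
      simp only [hT, Finset.mem_filter]
      exact ⟨hn, by omega, hne⟩
    have := hmax n this
    simp only [id] at this
    omega
  have hlim : ∀ y : ℝ, 0 ≤ y → y ≤ 1 / 2 → (c m * exp (2 * π * m * y * I)).im ≤ 0 := by
    intro y hy0 hy1
    have h1 : Tendsto (fun x : ℝ => ∑ n ∈ S, (c n * exp (2 * π * n * y * I)) *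
        ((Real.exp (2 * π * ((n : ℝ) - m) * x) : ℝ) : ℂ)) atTop
        (𝓝 (∑ n ∈ S, if n = m then c m * exp (2 * π * m * y * I) else 0)) := by
      refine tendsto_finsetSum _ fun n hn => ?_
      rcases lt_trichotomy n m with h | h | h
      · rw [if_neg h.ne]
        have h2 : Tendsto (fun x : ℝ => Real.exp (2 * π * ((n : ℝ) - m) * x)) atTop (𝓝 0) := by
          refine Real.tendsto_exp_atBot.comp ?_
          refine Tendsto.const_mul_atTop_of_neg ?_ tendsto_id
          have : (n : ℝ) < m := by exact_mod_cast h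
          have h3 := Real.pi_pos
          nlinarith
        have h3 := ((continuous_ofReal.tendsto 0).comp h2).const_mul
          (c n * exp (2 * π * n * y * I))
        simpa using h3
      · subst h
        simp
      · rw [if_neg h.ne', hbig n hn h]
        simp
    rw [Finset.sum_ite_eq_of_mem' _ _ _ hmS] at h1
    have h2 : Tendsto (fun x : ℝ => (∑ n ∈ S, (c n * exp (2 * π * n * y * I)) *
        ((Real.exp (2 * π * ((n : ℝ) - m) * x) : ℝ) : ℂ)).im) atTop
        (𝓝 (c m * exp (2 * π * m * y * I)).im) :=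
      (continuous_im.tendsto _).comp h1
    refine le_of_tendsto h2 (Eventually.of_forall fun x => ?_)
    have h3 := hIm (x + y * I) (by simpa using hy0) (by simpa using hy1)
    have h4 : ∑ n ∈ S, (c n * exp (2 * π * n * y * I)) *
        ((Real.exp (2 * π * ((n : ℝ) - m) * x) : ℝ) : ℂ)
        = ((Real.exp (-(2 * π * m * x)) : ℝ) : ℂ) *
          ∑ n ∈ S, c n * exp (2 * π * (n : ℂ) * (x + y * I)) := by
      rw [Finset.mul_sum]
      refine Finset.sum_congr rfl fun n _ => ?_
      push_cast
      rw [mul_assoc, ← exp_add, mul_left_comm, ← exp_add]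
      congr 2
      ring
    rw [h4, im_ofReal_mul]
    exact mul_nonpos_of_nonneg_of_nonpos (Real.exp_pos _).le h3
  have hmR : (2 : ℝ) ≤ m := by exact_mod_cast hm2
  have hm0 : (0 : ℝ) < m := by linarith
  have hm0' : (m : ℂ) ≠ 0 := by
    have : (m : ℤ) ≠ 0 := by omega
    exact_mod_cast this
  have hy : ∀ t : ℝ, 0 ≤ t → t ≤ 3 → (c m * exp (t * (π / 2 * I))).im ≤ 0 := by
    intro t ht0 ht3
    have h1 := hlim (t / (4 * m)) (by positivity) (by
      rw [div_le_div_iff₀ (by positivity) (by norm_num)]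
      nlinarith)
    have h2 : (2 : ℂ) * π * m * ((t / (4 * m) : ℝ) : ℂ) * I = t * (π / 2 * I) := by
      push_cast
      field_simp
      ring
    rwa [h2] at h1
  have e1 : exp (π / 2 * I) = I := Complex.exp_pi_div_two_mul_I
  have y0 := hy 0 le_rfl (by norm_num)
  have y1 := hy 1 (by norm_num) (by norm_num)
  have y2 := hy 2 (by norm_num) (by norm_num)
  have y3 := hy 3 (by norm_num) le_rfl
  have f2 : exp (((2 : ℝ) : ℂ) * (π / 2 * I)) = -1 := by
    have : (((2 : ℝ) : ℂ) * (π / 2 * I)) = (π / 2 * I) + (π / 2 * I) := by push_cast; ring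
    rw [this, exp_add, e1, I_mul_I]
  have f3 : exp (((3 : ℝ) : ℂ) * (π / 2 * I)) = -I := by
    have : (((3 : ℝ) : ℂ) * (π / 2 * I)) = ((2 : ℝ) : ℂ) * (π / 2 * I) + (π / 2 * I) := by
      push_cast; ring
    rw [this, exp_add, e1, f2]; ring
  rw [ofReal_zero, zero_mul, exp_zero, mul_one] at y0
  rw [ofReal_one, one_mul, e1] at y1
  rw [f2] at y2
  rw [f3] at y3
  simp only [mul_im, I_im, I_re, mul_one, mul_zero, add_zero, neg_im, mul_neg] at y0 y1 y2 y3
  apply hmc
  apply Complex.ext
  · simp; linarith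
  · simp; linarith

/-- the same at the bottom, by the reflection `z ↦ I / 2 - z` -/
theorem bot_zero (S : Finset ℤ) (c : ℤ → ℂ)
    (hIm : ∀ z : ℂ, 0 ≤ z.im → z.im ≤ 1 / 2 →
      (∑ n ∈ S, c n * exp (2 * π * (n : ℂ) * z)).im ≤ 0) :
    ∀ n ∈ S, n ≤ -2 → c n = 0 := by
  intro n hn hn2
  have h := top_zero (S.map (Equiv.neg ℤ).toEmbedding)
    (fun m => c (-m) * exp (-(π * m * I))) (by
      intro z hz0 hz1
      have h1 := hIm (I / 2 - z) (by
        have : (I / 2 - z).im = 1 / 2 - z.im := by simp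
        rw [this]; linarith) (by
        have : (I / 2 - z).im = 1 / 2 - z.im := by simp
        rw [this]; linarith)
      rw [Finset.sum_map]
      convert h1 using 2
      refine Finset.sum_congr rfl fun k _ => ?_
      simp only [Equiv.coe_toEmbedding, Equiv.neg_apply, neg_neg, Int.cast_neg]
      rw [mul_assoc, ← exp_add]
      congr 2
      ring)
    (-n) (by simpa using hn) (by omega)
  simp only [neg_neg, mul_eq_zero, exp_ne_zero, or_false] at h
  exact h

/-- **Three terms.** An entire `I`-periodic function of exponential growth whose imaginary part is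
`≤ 0` on the strip `0 ≤ im z ≤ 1/2` is `c0 + c1 exp (2 π z) + c2 exp (- 2 π z)`. -/
theorem three_terms (P : ℂ → ℂ) (hP : Differentiable ℂ P) (hper : ∀ z, P (z + I) = P z)
    (C k : ℝ) (hb : ∀ z, ‖P z‖ ≤ C * Real.exp (k * |z.re|))
    (hIm : ∀ z : ℂ, 0 ≤ z.im → z.im ≤ 1 / 2 → (P z).im ≤ 0) :
    ∃ c0 c1 c2 : ℂ, ∀ z, P z = c0 + c1 * exp (2 * π * z) + c2 * exp (-(2 * π * z)) := by
  classical
  obtain ⟨N, c, hc⟩ := laurent P hP hper C k hb
  set e : ℕ ↪ ℤ := ⟨fun j => (j : ℤ) - N, fun a b h => by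
    have : (a : ℤ) - N = (b : ℤ) - N := h
    omega⟩ with he
  set S : Finset ℤ := (Finset.range (2 * N + 1)).map e with hS
  set d : ℤ → ℂ := fun n => if n ∈ S then c (n + N).toNat else 0 with hd
  have hPd : ∀ z, P z = ∑ n ∈ S, d n * exp (2 * π * (n : ℂ) * z) := by
    intro z
    rw [hc z, hS, Finset.sum_map]
    refine Finset.sum_congr rfl fun j hj => ?_
    have h1 : e j ∈ S := by rw [hS]; exact Finset.mem_map_of_mem _ hj
    have he' : e j = (j : ℤ) - N := rfl
    have h2 : (e j + N).toNat = j := by rw [he']; simp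
    have h3 : ((e j : ℤ) : ℂ) = (j : ℂ) - N := by rw [he']; push_cast; ring
    simp only [hd, if_pos h1, h2, h3]
  have hIm' : ∀ z : ℂ, 0 ≤ z.im → z.im ≤ 1 / 2 →
      (∑ n ∈ S, d n * exp (2 * π * (n : ℂ) * z)).im ≤ 0 := by
    intro z h0 h1
    rw [← hPd z]
    exact hIm z h0 h1
  have htop := top_zero S d hIm'
  have hbot := bot_zero S d hIm'
  have hzero : ∀ n, n ∉ ({0, 1, -1} : Finset ℤ) → d n = 0 := by
    intro n hn
    by_cases hnS : n ∈ S
    · simp only [Finset.mem_insert, Finset.mem_singleton, not_or] at hn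
      obtain ⟨h0, h1, h2⟩ := hn
      rcases (by omega : 2 ≤ n ∨ n ≤ -2) with h | h
      · exact htop n hnS h
      · exact hbot n hnS h
    · simp [hd, hnS]
  refine ⟨d 0, d 1, d (-1), fun z => ?_⟩
  have h1 : ∑ n ∈ S, d n * exp (2 * π * (n : ℂ) * z)
      = ∑ n ∈ S ∪ {0, 1, -1}, d n * exp (2 * π * (n : ℂ) * z) := by
    refine Finset.sum_subset Finset.subset_union_left fun n _ hn => ?_
    simp [hd, hn]
  have h2 : ∑ n ∈ ({0, 1, -1} : Finset ℤ), d n * exp (2 * π * (n : ℂ) * z)
      = ∑ n ∈ S ∪ {0, 1, -1}, d n * exp (2 * π * (n : ℂ) * z) := by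
    refine Finset.sum_subset Finset.subset_union_right fun n _ hn => ?_
    rw [hzero n hn, zero_mul]
  rw [hPd z, h1, ← h2, Finset.sum_insert (by decide), Finset.sum_insert (by decide),
    Finset.sum_singleton]
  simp only [Int.cast_zero, Int.cast_one, Int.cast_neg, mul_zero, zero_mul, exp_zero, mul_one,
    mul_neg, neg_mul]
  ring

end

end H205.Ent
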